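import Mathlib
import Vale.Agent.Lib.P248.helper1.ConeAux

/-!
# P248: the volume of a cone over a compact base is at least `h / (n + 1)` times the base
-/

namespace Vale.Agent.Lib.P248.H77

open MeasureTheory Set
open scoped ENNReal
open Vale.Agent.Lib.P227 Vale.Agent.Lib.P248.H1

theorem isCompact_coneE {n : ℕ} (D : Set (EuclideanSpace ℝ (Fin n))) (hD : IsCompact D)
    (c : EuclideanSpace ℝ (Fin n)) (h : ℝ) : IsCompact (coneE D c h) := by
  have hc : Continuous (fun p : EuclideanSpace ℝ (Fin n) × ℝ =>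
      ecomb (p.2 * h) ((1 - p.2) • p.1 + p.2 • c)) := by
    have h1 : Continuous (fun p : EuclideanSpace ℝ (Fin n) × ℝ =>
        ((p.2 * h, (1 - p.2) • p.1 + p.2 • c) : ℝ × EuclideanSpace ℝ (Fin n))) := by
      fun_prop
    exact continuous_ecomb_prod.comp h1
  have e : coneE D c h = (fun p : EuclideanSpace ℝ (Fin n) × ℝ =>
      ecomb (p.2 * h) ((1 - p.2) • p.1 + p.2 • c)) '' (D ×ˢ Icc (0 : ℝ) 1) := by
    ext x
    constructor
    · rintro ⟨d, hd, r, hr0, hr1, rfl⟩
      exact ⟨(d, r), ⟨hd, hr0, hr1⟩, rfl⟩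
    · rintro ⟨⟨d, r⟩, ⟨hd, hr0, hr1⟩, rfl⟩
      exact ⟨d, hd, r, hr0, hr1, rfl⟩
  rw [e]
  exact (hD.prod isCompact_Icc).image hc

theorem sec_coneE_superset {n : ℕ} (D : Set (EuclideanSpace ℝ (Fin n)))
    (c : EuclideanSpace ℝ (Fin n)) (h : ℝ) (hh : 0 < h) (t : ℝ) (ht : t ∈ Ico (0 : ℝ) h) :
    AffineMap.homothety c (1 - t / h) '' D ⊆ sec t (coneE D c h) := by
  rintro _ ⟨d, hd, rfl⟩
  show ecomb t (AffineMap.homothety c (1 - t / h) d) ∈ coneE D c h
  refine ⟨d, hd, t / h, div_nonneg ht.1 hh.le, (div_le_one hh).2 ht.2.le, ?_⟩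
  have e1 : t / h * h = t := div_mul_cancel₀ t hh.ne'
  rw [e1]
  congr 1
  rw [AffineMap.homothety_apply]
  simp only [vsub_eq_sub, vadd_eq_add]
  module

theorem integral_one_sub_div_pow (n : ℕ) (h : ℝ) (hh : 0 < h) :
    ∫ t in (0 : ℝ)..h, (1 - t / h) ^ n = h / (n + 1) := by
  have hn : ((n : ℝ) + 1) ≠ 0 := by positivity
  have hderiv : ∀ t ∈ uIcc (0 : ℝ) h,
      HasDerivAt (fun t : ℝ => -(h / (n + 1)) * (1 - t / h) ^ (n + 1)) ((1 - t / h) ^ n) t := by
    intro t _
    have h1 : HasDerivAt (fun t : ℝ => 1 - t / h) (-(1 / h)) t := by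
      have h0 := ((hasDerivAt_id t).div_const h).const_sub 1
      simpa using h0
    have h2 := (h1.pow (n + 1)).const_mul (-(h / (n + 1)))
    have e : -(h / (n + 1)) * (((n + 1 : ℕ) : ℝ) * (1 - t / h) ^ (n + 1 - 1) * -(1 / h))
        = (1 - t / h) ^ n := by
      rw [Nat.add_sub_cancel]
      push_cast
      field_simp
    rw [← e]
    exact h2
  have hcont : Continuous fun t : ℝ => (1 - t / h) ^ n := by fun_prop
  rw [intervalIntegral.integral_eq_sub_of_hasDerivAt hderiv (hcont.intervalIntegrable _ _)]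
  have e0 : (1 : ℝ) - h / h = 0 := by rw [div_self hh.ne', sub_self]
  rw [e0]
  simp

theorem lintegral_one_sub_div_pow (n : ℕ) (h : ℝ) (hh : 0 < h) :
    ∫⁻ t in Ico (0 : ℝ) h, ENNReal.ofReal ((1 - t / h) ^ n) = ENNReal.ofReal (h / (n + 1)) := by
  have hcont : Continuous fun t : ℝ => (1 - t / h) ^ n := by fun_prop
  have hint : IntegrableOn (fun t : ℝ => (1 - t / h) ^ n) (Ico (0 : ℝ) h) volume :=
    (hcont.integrableOn_Icc (a := 0) (b := h)).mono_set Ico_subset_Icc_self
  have hnn : 0 ≤ᵐ[volume.restrict (Ico (0 : ℝ) h)] fun t : ℝ => (1 - t / h) ^ n := by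
    filter_upwards [ae_restrict_mem measurableSet_Ico] with t ht
    have h1 : t / h ≤ 1 := (div_le_one hh).2 ht.2.le
    exact pow_nonneg (by linarith) n
  rw [← ofReal_integral_eq_lintegral_ofReal hint hnn, integral_Ico_eq_integral_Ioo,
    ← integral_Ioc_eq_integral_Ioo, ← intervalIntegral.integral_of_le hh.le,
    integral_one_sub_div_pow n h hh]

theorem vol_cone_ge {n : ℕ} (D : Set (EuclideanSpace ℝ (Fin n))) (hD : IsCompact D)
    (c : EuclideanSpace ℝ (Fin n)) (h : ℝ) (hh : 0 < h) :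
    ENNReal.ofReal (h / (n + 1)) * volume D ≤ volume (coneE D c h) := by
  have hm : MeasurableSet (coneE D c h) := (isCompact_coneE D hD c h).isClosed.measurableSet
  rw [volume_eq_lintegral_sec hm]
  have hsec : ∀ t ∈ Ico (0 : ℝ) h,
      ENNReal.ofReal ((1 - t / h) ^ n) * volume D ≤ volume (sec t (coneE D c h)) := by
    intro t ht
    have hsub := sec_coneE_superset D c h hh t ht
    have hvol := Measure.addHaar_image_homothety
      (volume : Measure (EuclideanSpace ℝ (Fin n))) c (1 - t / h) D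
    rw [finrank_euclideanSpace_fin] at hvol
    have hnn : 0 ≤ 1 - t / h := by
      have h1 : t / h ≤ 1 := (div_le_one hh).2 ht.2.le
      linarith
    rw [abs_of_nonneg (pow_nonneg hnn n)] at hvol
    rw [← hvol]
    exact measure_mono hsub
  have hmeas : Measurable fun t : ℝ => ENNReal.ofReal ((1 - t / h) ^ n) := by fun_prop
  calc ENNReal.ofReal (h / (n + 1)) * volume D
      = ∫⁻ t in Ico (0 : ℝ) h, ENNReal.ofReal ((1 - t / h) ^ n) * volume D := by
        rw [lintegral_mul_const _ hmeas, lintegral_one_sub_div_pow n h hh]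
    _ ≤ ∫⁻ t in Ico (0 : ℝ) h, volume (sec t (coneE D c h)) :=
        setLIntegral_mono' measurableSet_Ico hsec
    _ ≤ ∫⁻ t, volume (sec t (coneE D c h)) := setLIntegral_le_lintegral _ _

end Vale.Agent.Lib.P248.H77
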