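import Mathlib
import Vale.Agent.Lib.P248.helper77.ConeVol

/-!
# P248: the volume bound for a cone, assuming only that the cone is measurable
-/

namespace Vale.Agent.Lib.P248.H77

open MeasureTheory Set
open scoped ENNReal
open Vale.Agent.Lib.P227 Vale.Agent.Lib.P248.H1

theorem vol_cone_ge_of_measurable {n : ℕ} (D : Set (EuclideanSpace ℝ (Fin n)))
    (c : EuclideanSpace ℝ (Fin n)) (h : ℝ) (hh : 0 < h) (hK : MeasurableSet (coneE D c h)) :
    ENNReal.ofReal (h / (n + 1)) * volume D ≤ volume (coneE D c h) := by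
  rw [volume_eq_lintegral_sec hK]
  have hsec : ∀ t ∈ Ico (0 : ℝ) h,
      ENNReal.ofReal ((1 - t / h) ^ n) * volume D ≤ volume (sec t (coneE D c h)) := by
    intro t ht
    have hsub := sec_coneE_superset D c h hh t ht
    have hvol := Measure.addHaar_image_homothety
      (volume : Measure (EuclideanSpace ℝ (Fin n))) c (1 - t / h) D
    rw [finrank_euclideanSpace_fin] at hvol
    have hnn : 0 ≤ 1 - t / h := by
      have h1 : t / h ≤ 1 := (div_le_one hh).2 ht.2.le
      linarith
    rw [abs_of_nonneg (pow_nonneg hnn n)] at hvol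
    rw [← hvol]
    exact measure_mono hsub
  have hmeas : Measurable fun t : ℝ => ENNReal.ofReal ((1 - t / h) ^ n) := by fun_prop
  calc ENNReal.ofReal (h / (n + 1)) * volume D
      = ∫⁻ t in Ico (0 : ℝ) h, ENNReal.ofReal ((1 - t / h) ^ n) * volume D := by
        rw [lintegral_mul_const _ hmeas, lintegral_one_sub_div_pow n h hh]
    _ ≤ ∫⁻ t in Ico (0 : ℝ) h, volume (sec t (coneE D c h)) :=
        setLIntegral_mono' measurableSet_Ico hsec
    _ ≤ ∫⁻ t, volume (sec t (coneE D c h)) := setLIntegral_le_lintegral _ _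

end Vale.Agent.Lib.P248.H77
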