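import Mathlib
import Vale.Agent.Lib.P248.helper25.ABDefs

namespace Vale.Agent.Lib.P248.H77

open Vale.Agent.Lib.P248.H25 MeasureTheory
open scoped ENNReal

theorem vol_pos {n : ℕ} {A : Set (Fin n → ℝ)} {ε R : ℝ} (h : Good A ε R) :
    0 < volume A := by
  have hsub : Set.Icc (0 : Fin n → ℝ) (fun _ => ε) ⊆ A := by
    intro x hx
    exact h.cube x fun i => ⟨hx.1 i, hx.2 i⟩
  have hvol : volume (Set.Icc (0 : Fin n → ℝ) (fun _ => ε)) =
      ∏ i : Fin n, ENNReal.ofReal (ε - 0) := by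
    rw [Real.volume_Icc_pi]
    rfl
  have hpos : 0 < volume (Set.Icc (0 : Fin n → ℝ) (fun _ => ε)) := by
    rw [hvol]
    refine pos_iff_ne_zero.2 (Finset.prod_ne_zero_iff.2 fun i _ => ?_)
    rw [sub_zero]
    exact (ENNReal.ofReal_pos.2 h.eps_pos).ne'
  exact lt_of_lt_of_le hpos (measure_mono hsub)

theorem vol_lt_top {n : ℕ} {A : Set (Fin n → ℝ)} {ε R : ℝ} (h : Good A ε R) :
    volume A < ⊤ := by
  have hsub : A ⊆ Set.Icc (0 : Fin n → ℝ) (fun _ => R) := by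
    intro x hx
    exact ⟨fun i => h.ab.1 x hx i, fun i => h.bdd x hx i⟩
  have hvol : volume (Set.Icc (0 : Fin n → ℝ) (fun _ => R)) =
      ∏ i : Fin n, ENNReal.ofReal (R - 0) := by
    rw [Real.volume_Icc_pi]
    rfl
  have hfin : volume (Set.Icc (0 : Fin n → ℝ) (fun _ => R)) < ⊤ := by
    rw [hvol]
    exact ENNReal.prod_lt_top fun i _ => ENNReal.ofReal_lt_top
  exact lt_of_le_of_lt (measure_mono hsub) hfin

end Vale.Agent.Lib.P248.H77
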