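import Mathlib
import Vale.Agent.Lib.P248.helper37.Q2Defs

/-!
# P248: basic facts on the polar about a point and its positive part
-/

open MeasureTheory Set

namespace Vale.Agent.Lib.P248.H77

open Vale.Agent.Lib.P248.H37 Vale.Agent.Lib.P248.H37Q

theorem isClosed_polZ {m : ℕ} (A : Set (Fin m → ℝ)) (z : Fin m → ℝ) : IsClosed (polZ A z) := by
  have e : polZ A z = ⋂ x ∈ A, {y : Fin m → ℝ | ∑ i, (x i - z i) * y i ≤ 1} := by
    ext y
    simp [polZ]
  rw [e]
  refine isClosed_biInter fun x _ => isClosed_le ?_ continuous_const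
  exact continuous_finsetSum _ fun i _ => continuous_const.mul (continuous_apply i)

theorem posZ_eq_inter {m : ℕ} (A : Set (Fin m → ℝ)) (z : Fin m → ℝ) :
    posZ A z = {y : Fin m → ℝ | ∀ i, 0 ≤ y i} ∩ polZ A z := rfl

theorem isClosed_posZ {m : ℕ} (A : Set (Fin m → ℝ)) (z : Fin m → ℝ) : IsClosed (posZ A z) := by
  rw [posZ_eq_inter]
  exact H37.isClosed_nonneg.inter (isClosed_polZ A z)

theorem convex_posZ {m : ℕ} (A : Set (Fin m → ℝ)) (z : Fin m → ℝ) : Convex ℝ (posZ A z) := by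
  intro y hy y' hy' a b ha hb hab
  refine ⟨fun i => ?_, fun x hx => ?_⟩
  · have h1 := hy.1 i
    have h2 := hy'.1 i
    simp only [Pi.add_apply, Pi.smul_apply, smul_eq_mul]
    positivity
  · have h1 := hy.2 x hx
    have h2 := hy'.2 x hx
    have e : ∑ i, (x i - z i) * (a • y + b • y') i
        = a * ∑ i, (x i - z i) * y i + b * ∑ i, (x i - z i) * y' i := by
      rw [Finset.mul_sum, Finset.mul_sum, ← Finset.sum_add_distrib]
      refine Finset.sum_congr rfl fun i _ => ?_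
      simp only [Pi.add_apply, Pi.smul_apply, smul_eq_mul]
      ring
    rw [e]
    calc a * ∑ i, (x i - z i) * y i + b * ∑ i, (x i - z i) * y' i
        ≤ a * 1 + b * 1 :=
          add_le_add (mul_le_mul_of_nonneg_left h1 ha) (mul_le_mul_of_nonneg_left h2 hb)
      _ = 1 := by rw [mul_one, mul_one, hab]

theorem posZ_subset_Icc {m : ℕ} {A : Set (Fin m → ℝ)} {z : Fin m → ℝ} (h : Adm A z) :
    ∃ ε : ℝ, 0 < ε ∧ posZ A z ⊆ Icc (0 : Fin m → ℝ) (fun _ => 1 / ε) := by
  obtain ⟨ε, hε, hz⟩ := h.room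
  refine ⟨ε, hε, fun y hy => ⟨fun i => hy.1 i, fun j => ?_⟩⟩
  have h1 := hy.2 _ hz
  have e : ∑ i, (z i + ε - z i) * y i = ε * ∑ i, y i := by
    rw [Finset.mul_sum]
    refine Finset.sum_congr rfl fun i _ => ?_
    ring
  rw [e] at h1
  have h2 : y j ≤ ∑ i, y i := Finset.single_le_sum (fun i _ => hy.1 i) (Finset.mem_univ j)
  show y j ≤ 1 / ε
  rw [le_div_iff₀ hε]
  nlinarith

theorem isCompact_posZ {m : ℕ} {A : Set (Fin m → ℝ)} {z : Fin m → ℝ} (h : Adm A z) :
    IsCompact (posZ A z) := by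
  obtain ⟨ε, _, hsub⟩ := posZ_subset_Icc h
  exact isCompact_Icc.of_isClosed_subset (isClosed_posZ A z) hsub

theorem volume_posZ_ne_top {m : ℕ} {A : Set (Fin m → ℝ)} {z : Fin m → ℝ} (h : Adm A z) :
    volume (posZ A z) ≠ ⊤ :=
  (isCompact_posZ h).measure_lt_top.ne

theorem cube_subset_posZ {m : ℕ} {A : Set (Fin m → ℝ)} {z : Fin m → ℝ} (h : Adm A z) :
    ∃ d : ℝ, 0 < d ∧ Icc (0 : Fin m → ℝ) (fun _ => d) ⊆ posZ A z := by
  obtain ⟨R, hR⟩ := h.good.bdd
  have hR0 : 0 ≤ max R 0 := le_max_right _ _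
  have hden : 0 < (m : ℝ) * max R 0 + 1 := by positivity
  refine ⟨1 / ((m : ℝ) * max R 0 + 1), by positivity, fun y hy => ⟨fun i => hy.1 i, fun x hx => ?_⟩⟩
  have hterm : ∀ i ∈ (Finset.univ : Finset (Fin m)),
      (x i - z i) * y i ≤ max R 0 * (1 / ((m : ℝ) * max R 0 + 1)) := by
    intro i _
    have hy0 : 0 ≤ y i := hy.1 i
    have hy1 : y i ≤ 1 / ((m : ℝ) * max R 0 + 1) := hy.2 i
    have hx1 : x i - z i ≤ max R 0 := by
      have h1 := hR x hx i
      have h2 := h.pos i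
      have h3 : R ≤ max R 0 := le_max_left _ _
      linarith
    calc (x i - z i) * y i ≤ max R 0 * y i := mul_le_mul_of_nonneg_right hx1 hy0
      _ ≤ max R 0 * (1 / ((m : ℝ) * max R 0 + 1)) := mul_le_mul_of_nonneg_left hy1 hR0
  have hsum := Finset.sum_le_sum hterm
  rw [Finset.sum_const, Finset.card_univ, Fintype.card_fin, nsmul_eq_mul] at hsum
  refine hsum.trans ?_
  rw [← mul_assoc, mul_one_div, div_le_one hden]
  linarith

theorem vT_pos {m : ℕ} {A : Set (Fin m → ℝ)} {z : Fin m → ℝ} (h : Adm A z) : 0 < vT A z := by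
  obtain ⟨d, hd, hsub⟩ := cube_subset_posZ h
  have hpos : 0 < volume (posZ A z) := by
    refine lt_of_lt_of_le ?_ (measure_mono hsub)
    rw [Real.volume_Icc_pi]
    refine pos_iff_ne_zero.2 (Finset.prod_ne_zero_iff.2 (fun i _ => ?_))
    simp [hd]
  exact ENNReal.toReal_pos hpos.ne' (volume_posZ_ne_top h)

theorem vA_pos {m : ℕ} {A : Set (Fin m → ℝ)} (h : Good A) : 0 < vA A :=
  ENNReal.toReal_pos (good_vol_pos h).ne' (good_vol_lt_top h).ne

theorem volume_univ_dim_zero : volume (univ : Set (Fin 0 → ℝ)) = 1 := by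
  rw [← Set.pi_univ (univ : Set (Fin 0)), volume_pi_pi]
  simp

theorem vT_dim_zero (A : Set (Fin 0 → ℝ)) (z : Fin 0 → ℝ) : vT A z = 1 := by
  have hD : posZ A z = univ := by
    apply eq_univ_of_forall
    intro y
    exact ⟨fun i => i.elim0, fun x _ => by simp⟩
  unfold vT
  rw [hD, volume_univ_dim_zero]
  simp

theorem vA_dim_zero {A : Set (Fin 0 → ℝ)} (h : Good A) : vA A = 1 := by
  obtain ⟨ε, _, hc⟩ := h.cube
  have hA : A = univ := eq_univ_of_forall (fun y => hc y (fun i => i.elim0))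
  unfold vA
  rw [hA, volume_univ_dim_zero]
  simp

end Vale.Agent.Lib.P248.H77
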