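import Mathlib
import Vale.Agent.Lib.P248.helper37.Q2Defs

/-!
# P248: separation step for the polar of an anti-blocking body about an interior point
-/

open MeasureTheory Set

namespace Vale.Agent.Lib.P248.H77

open Vale.Agent.Lib.P248.H37 Vale.Agent.Lib.P248.H37Q

/-- The positive part of a vector of the polar about `z` lies in the positive part of the
polar. -/
theorem posPart_mem_posZ {m : ℕ} {A : Set (Fin m → ℝ)} {z : Fin m → ℝ} (h : Adm A z)
    (y : Fin m → ℝ) (hy : ∀ x ∈ A, ∑ i, (x i - z i) * y i ≤ 1) :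
    (fun i => max (y i) 0) ∈ posZ A z := by
  refine ⟨fun i => le_max_right _ _, fun x hx => ?_⟩
  have hxt : (fun i => if 0 ≤ y i then x i else 0) ∈ A := by
    refine h.good.down x hx _ (fun i => ?_)
    have hx0 := h.good.nonneg x hx i
    by_cases hyi : 0 ≤ y i
    · simp [hyi, hx0]
    · simp [hyi, hx0]
  have h1 := hy _ hxt
  refine le_trans (Finset.sum_le_sum fun i _ => ?_) h1
  by_cases hyi : 0 ≤ y i
  · simp only [hyi, if_true, max_eq_left hyi]
    exact le_rfl
  · have hneg : y i < 0 := not_le.1 hyi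
    have hz := h.pos i
    simp only [hyi, if_false, max_eq_right hneg.le, mul_zero]
    nlinarith

theorem star_mem {m : ℕ} {A : Set (Fin m → ℝ)} {z : Fin m → ℝ} (h : Adm A z) (ξ : Fin m → ℝ)
    (hξ : ∀ i, 0 ≤ ξ i) (hT : ∀ y ∈ posZ A z, ∑ i, y i * ξ i ≤ 1) :
    (fun i => z i + ξ i) ∈ A := by
  by_contra hp
  obtain ⟨f, s, hfs, hsp⟩ := geometric_hahn_banach_closed_point h.good.convex h.good.closed hp
  obtain ⟨ε, hε, hzε⟩ := h.room
  have hzA : z ∈ A :=
    h.good.down _ hzε z (fun i => ⟨(h.pos i).le, by linarith⟩)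
  set c : Fin m → ℝ := fun i => f (fun j => if i = j then 1 else 0) with hc
  have hf : ∀ v : Fin m → ℝ, f v = ∑ i, v i * c i := by
    intro v
    have h0 := LinearMap.pi_apply_eq_sum_univ (f : (Fin m → ℝ) →ₗ[ℝ] ℝ) v
    simpa [smul_eq_mul] using h0
  set g : ℝ := s - f z with hg
  have hgpos : 0 < g := by
    have h0 := hfs z hzA
    linarith
  have hy : ∀ x ∈ A, ∑ i, (x i - z i) * (c i / g) ≤ 1 := by
    intro x hx
    have e : ∑ i, (x i - z i) * (c i / g) = (f x - f z) / g := by
      rw [hf x, hf z, ← Finset.sum_sub_distrib, Finset.sum_div]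
      refine Finset.sum_congr rfl fun i _ => ?_
      ring
    rw [e, div_le_one hgpos]
    have h0 := hfs x hx
    linarith
  have hyp := posPart_mem_posZ h (fun i => c i / g) hy
  have h1 := hT _ hyp
  have h2 : ∑ i, (c i / g) * ξ i ≤ ∑ i, max (c i / g) 0 * ξ i :=
    Finset.sum_le_sum fun i _ => mul_le_mul_of_nonneg_right (le_max_left _ _) (hξ i)
  have e2 : ∑ i, (c i / g) * ξ i = (f (fun i => z i + ξ i) - f z) / g := by
    rw [hf (fun i => z i + ξ i), hf z, ← Finset.sum_sub_distrib, Finset.sum_div]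
    refine Finset.sum_congr rfl fun i _ => ?_
    ring
  have h3 : 1 < (f (fun i => z i + ξ i) - f z) / g := by
    rw [one_lt_div hgpos]
    linarith
  linarith

end Vale.Agent.Lib.P248.H77
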